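import Vale.Agent.P125.Dich.ApiB

set_option linter.unusedSectionVars false
set_option linter.unusedVariables false

/-!
# P125, (BV): the iid step

A stationary path of length `a + b` of a marked reversible chain is cut at its middle state `z`:
given `z`, the reversed first part and the second part are independent paths started at `z`.
-/

namespace Vale.Agent.P125.BV

open scoped BigOperators
open Vale.Agent.P125.Dich

variable {S M : Type} [Fintype S] [Fintype M] (C : MChain S M)

/-- cutting a stationary path at the state reached after `a` steps -/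
lemma E_split (a b : ℕ) (F H : List M → ℝ) :
    C.E (a + b) (fun l => F (l.take a) * H (l.drop a)) =
      ∑ z, C.μ z * C.valT a (fun l _ => F ((l.map C.inv).reverse)) z *
        C.valT b (fun l _ => H l) z := by
  have h1 : ∀ x, C.valT (a + b) (fun l _ => F (l.take a) * H (l.drop a)) x
      = C.valT a (fun l z => F l * C.valT b (fun l2 _ => H l2) z) x := by
    intro x
    rw [valT_append]
    apply valT_congr
    intro l z hl
    have h2 : C.valT b (fun l2 _ => F ((l ++ l2).take a) * H ((l ++ l2).drop a)) z
        = C.valT b (fun l2 _ => F l * H l2) z := by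
      apply valT_congr
      intro l2 w _
      rw [← hl, List.take_left, List.drop_left]
    rw [h2, valT_const_mul]
  have h3 := rev_identity C a F (fun _ => 1) (fun z => C.valT b (fun l2 _ => H l2) z)
  unfold MChain.E
  simp only [h1]
  simp only [mul_one] at h3
  rw [h3]
  refine Finset.sum_congr rfl fun z _ => ?_
  ring

/-- a functional which is odd under reversal is nonpositively correlated on the two halves -/
lemma E_anti_le (m : ℕ) (ψ : List M → ℝ) (hψ : ∀ l, ψ ((l.map C.inv).reverse) = - ψ l) :
    C.E (m + m) (fun l => ψ (l.take m) * ψ (l.drop m)) ≤ 0 := by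
  rw [E_split]
  apply Finset.sum_nonpos
  intro z _
  have h1 : C.valT m (fun l _ => ψ ((l.map C.inv).reverse)) z
      = - C.valT m (fun l _ => ψ l) z := by
    have h2 : C.valT m (fun l _ => ψ ((l.map C.inv).reverse)) z
        = C.valT m (fun l _ => (-1) * ψ l) z := by
      apply valT_congr
      intro l w _
      rw [hψ]
      ring
    rw [h2, valT_const_mul]
    ring
  rw [h1]
  have h3 := C.μ_nonneg z
  nlinarith [mul_nonneg h3 (mul_self_nonneg (C.valT m (fun l _ => ψ l) z))]

/-- the product over the two halves is bounded by the second moment of one half -/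
lemma E_prod_le (m : ℕ) (φ : List M → ℝ) :
    C.E (m + m) (fun l => φ (l.take m) * φ (l.drop m)) ≤ C.E m (fun l => φ l ^ 2) := by
  have h1 : C.E (m + m) (fun l => φ (l.take m) * φ (l.drop m)) ≤
      C.E (m + m) (fun l => (1 / 2) * (φ (l.take m)) ^ 2 + (1 / 2) * (φ (l.drop m)) ^ 2) := by
    apply E_mono
    intro l _
    nlinarith [sq_nonneg (φ (l.take m) - φ (l.drop m))]
  have h2 : C.E (m + m) (fun l => (1 / 2) * (φ (l.take m)) ^ 2 + (1 / 2) * (φ (l.drop m)) ^ 2)
      = C.E m (fun l => φ l ^ 2) := by
    rw [E_add, E_const_mul, E_const_mul, E_take C m m (fun l => φ l ^ 2),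
      E_drop C m m (fun l => φ l ^ 2)]
    ring
  linarith

/-- THE IID STEP.  `mu` is a nonnegative weight of a half path, invariant under reversal, `sg` a
sign of a half path, odd under reversal.  Then the two halves have the same sign with weight at
most one half. -/
lemma iid_step (m : ℕ) (mu sg : List M → ℝ) (h0 : ∀ l, 0 ≤ mu l)
    (hmu : ∀ l, mu ((l.map C.inv).reverse) = mu l)
    (hsg1 : ∀ l, sg l = 1 ∨ sg l = -1)
    (hsg : ∀ l, sg ((l.map C.inv).reverse) = - sg l) :
    C.E (m + m) (fun l => mu (l.take m) * mu (l.drop m) *
      (if sg (l.take m) = sg (l.drop m) then 1 else 0)) ≤ (1 / 2) * C.E m (fun l => mu l ^ 2) := by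
  have h1 : ∀ l : List M, mu (l.take m) * mu (l.drop m) *
      (if sg (l.take m) = sg (l.drop m) then (1 : ℝ) else 0) =
      (1 / 2) * (mu (l.take m) * mu (l.drop m)) +
        (1 / 2) * ((mu (l.take m) * sg (l.take m)) * (mu (l.drop m) * sg (l.drop m))) := by
    intro l
    rcases hsg1 (l.take m) with h | h <;> rcases hsg1 (l.drop m) with h' | h' <;>
      rw [h, h'] <;> norm_num <;> ring
  have h2 : C.E (m + m) (fun l => mu (l.take m) * mu (l.drop m) *
      (if sg (l.take m) = sg (l.drop m) then 1 else 0)) =
      (1 / 2) * C.E (m + m) (fun l => mu (l.take m) * mu (l.drop m)) +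
      (1 / 2) * C.E (m + m) (fun l => (mu (l.take m) * sg (l.take m)) *
        (mu (l.drop m) * sg (l.drop m))) := by
    rw [← E_const_mul, ← E_const_mul, ← E_add]
    apply E_congr
    intro l _
    exact h1 l
  have h3 := E_anti_le C m (fun l => mu l * sg l) (by
    intro l
    rw [hmu, hsg]
    ring)
  have h4 := E_prod_le C m mu
  rw [h2]
  linarith

end Vale.Agent.P125.BV
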